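import Mathlib

/-!
# P032: the plane, proper colourings, the unit distance graph
-/

namespace Vale.Agent.P032S

/-- The Euclidean plane. -/
abbrev Plane : Type := EuclideanSpace ℝ (Fin 2)

/-- A proper colouring with `k` colours: any function with different values at any two points at
distance one. -/
def Proper {k : ℕ} (c : Plane → Fin k) : Prop :=
  ∀ x y : Plane, ‖x - y‖ = 1 → c x ≠ c y

/-- The graph whose vertices are all points of the plane and whose edges are the pairs of points at
distance one. -/
def unitGraph : SimpleGraph Plane where
  Adj x y := ‖x - y‖ = 1
  symm := ⟨fun x y h => by rw [norm_sub_rev]; exact h⟩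
  loopless := ⟨fun x h => by simp at h⟩

end Vale.Agent.P032S
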