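import Mathlib

/-!
# P032: a proper colouring of the plane with seven colours (bricks of size `3/4` times `3/5`)
-/

namespace Vale.Agent.P032S

theorem core (u v : ℝ) (d m : ℤ) (h : u ^ 2 + v ^ 2 = 1)
    (v1 : ((d : ℝ) - 1) * (3 / 5) < v) (v2 : v < ((d : ℝ) + 1) * (3 / 5))
    (u1 : 9 / 5 * (d : ℝ) + 21 / 4 * (m : ℝ) - 3 / 4 < u)
    (u2 : u < 9 / 5 * (d : ℝ) + 21 / 4 * (m : ℝ) + 3 / 4) : False := by
  have hu : u ≤ 1 ∧ -1 ≤ u := ⟨by nlinarith [sq_nonneg v, sq_nonneg (u - 1)],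
    by nlinarith [sq_nonneg v, sq_nonneg (u + 1)]⟩
  have hv : v ≤ 1 ∧ -1 ≤ v := ⟨by nlinarith [sq_nonneg u, sq_nonneg (v - 1)],
    by nlinarith [sq_nonneg u, sq_nonneg (v + 1)]⟩
  have d1 : d < 3 := by
    have : (d : ℝ) < 3 := by linarith [hv.1]
    exact_mod_cast this
  have d2 : -3 < d := by
    have : (-3 : ℝ) < d := by linarith [hv.2]
    exact_mod_cast this
  have m1 : 36 * d + 105 * m < 35 := by
    have : (36 : ℝ) * d + 105 * m < 35 := by linarith [hu.1]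
    exact_mod_cast this
  have m2 : -35 < 36 * d + 105 * m := by
    have : (-35 : ℝ) < 36 * d + 105 * m := by linarith [hu.2]
    exact_mod_cast this
  have key : (d = 0 ∧ m = 0) ∨ (d = 2 ∧ m = -1) ∨ (d = -2 ∧ m = 1) := by omega
  rcases key with ⟨rfl, rfl⟩ | ⟨rfl, rfl⟩ | ⟨rfl, rfl⟩ <;> push_cast at v1 v2 u1 u2 <;> nlinarith

/-- The colour of the point `(x, y)`. -/
noncomputable def col (x y : ℝ) : ZMod 7 :=
  (⌊(x - 9 / 5 * (⌊y / (3 / 5)⌋ : ℝ)) / (3 / 4)⌋ : ℤ)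

theorem col_ne (x y x' y' : ℝ) (h : (x' - x) ^ 2 + (y' - y) ^ 2 = 1) : col x y ≠ col x' y' := by
  intro e
  unfold col at e
  generalize hj : ⌊y / (3 / 5)⌋ = j at e
  generalize hj' : ⌊y' / (3 / 5)⌋ = j' at e
  generalize hi : ⌊(x - 9 / 5 * (j : ℝ)) / (3 / 4)⌋ = i at e
  generalize hi' : ⌊(x' - 9 / 5 * (j' : ℝ)) / (3 / 4)⌋ = i' at e
  rw [Int.floor_eq_iff] at hj hj' hi hi'
  obtain ⟨m, hm⟩ := (ZMod.intCast_eq_intCast_iff_dvd_sub i i' 7).1 e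
  have hm' : (i' : ℝ) = i + 7 * m := by
    have : i' = i + 7 * m := by push_cast at hm; omega
    exact_mod_cast this
  refine core (x' - x) (y' - y) (j' - j) m h ?_ ?_ ?_ ?_ <;> push_cast <;>
    linarith [hj.1, hj.2, hj'.1, hj'.2, hi.1, hi.2, hi'.1, hi'.2]

theorem seven : ∃ c : EuclideanSpace ℝ (Fin 2) → Fin 7,
    ∀ x y : EuclideanSpace ℝ (Fin 2), dist x y = 1 → c x ≠ c y := by
  refine ⟨fun p => (col (p 0) (p 1) : ZMod 7), fun x y h => col_ne _ _ _ _ ?_⟩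
  rw [EuclideanSpace.dist_eq, Fin.sum_univ_two, Real.sqrt_eq_one, Real.dist_eq, Real.dist_eq,
    sq_abs, sq_abs] at h
  linarith

end Vale.Agent.P032S
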