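import Vale.Agent.P032S.Defs
import Vale.Agent.P032S.Seven
import Vale.Agent.Results.P032.MeasurableEqual
import Vale.Agent.Results.P032.AllColouringsOpen

/-!
# P032: the chromatic number of the plane is six or seven
-/

namespace Vale.Agent.P032S

open MeasureTheory

theorem proper_iff {k : ℕ} (c : Plane → Fin k) :
    Proper c ↔ ∀ x y : Plane, dist x y = 1 → c x ≠ c y := by
  simp only [Proper, dist_eq_norm]

theorem colorable_iff (k : ℕ) : unitGraph.Colorable k ↔ ∃ c : Plane → Fin k, Proper c :=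
  ⟨fun ⟨c⟩ => ⟨c, fun _ _ h => c.valid h⟩,
    fun ⟨c, hc⟩ => ⟨SimpleGraph.Coloring.mk c fun h => hc _ _ h⟩⟩

theorem six_le {k : ℕ} (h : ∃ c : Plane → Fin k, Proper c) : 6 ≤ k := by
  obtain ⟨c, hc⟩ := h
  exact ((Results.P032.AllColouringsOpen.result k).1 ⟨c, (proper_iff c).1 hc⟩).1

theorem seven' : ∃ c : Plane → Fin 7, Proper c := by
  obtain ⟨c, hc⟩ := seven
  exact ⟨c, (proper_iff c).2 hc⟩

theorem finite_sub {k : ℕ} (h : ¬ unitGraph.Colorable k) :
    ∃ S : Finset Plane, ¬ (unitGraph.induce (S : Set Plane)).Colorable k := by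
  classical
  by_contra hcon
  push Not at hcon
  apply h
  have hG : Nonempty (unitGraph →g (⊤ : SimpleGraph (Fin k))) :=
    SimpleGraph.nonempty_hom_of_forall_finite_subgraph_hom fun G' hG' => by
      apply Classical.choice
      obtain ⟨c⟩ := hcon hG'.toFinset
      refine ⟨⟨fun v => c ⟨v, by simp⟩, fun {a b} hab => ?_⟩⟩
      exact c.valid (show unitGraph.Adj a b from G'.adj_sub hab)
  exact hG

theorem chrom_eq {V : Type*} {G : SimpleGraph V} {n : ℕ} (h1 : G.Colorable (n + 1))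
    (h2 : ¬ G.Colorable n) : G.chromaticNumber = (n + 1 : ℕ) := by
  refine le_antisymm h1.chromaticNumber_le ?_
  by_contra hlt
  push Not at hlt
  apply h2
  rw [← SimpleGraph.chromaticNumber_le_iff_colorable]
  have : ((n + 1 : ℕ) : ℕ∞) = (n : ℕ∞) + 1 := by push_cast; rfl
  rw [this] at hlt
  exact Order.le_of_lt_add_one hlt

theorem main : ∃ χ : ℕ, IsLeast {k | ∃ c : Plane → Fin k, Proper c} χ ∧
    unitGraph.chromaticNumber = χ ∧ (χ = 6 ∨ χ = 7) ∧
    (∃ S : Finset Plane, (unitGraph.induce (S : Set Plane)).chromaticNumber = χ) ∧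
    IsLeast {k | ∃ c : Plane → Fin k, Proper c ∧ ∀ i, NullMeasurableSet (c ⁻¹' {i}) volume} χ ∧
    (χ = 6 ↔ ∃ U : Fin 6 → Set Plane, (∀ i, IsOpen (U i)) ∧
      (∀ i, ∀ x ∈ U i, ∀ y ∈ U i, ‖x - y‖ ≠ 1) ∧ Dense (⋃ i, U i)) := by
  classical
  have ex : ∃ k, ∃ c : Plane → Fin k, Proper c := ⟨7, seven'⟩
  have hL : IsLeast {k | ∃ c : Plane → Fin k, Proper c} (Nat.find ex) :=
    ⟨Nat.find_spec ex, fun k hk => Nat.find_min' ex hk⟩
  generalize Nat.find ex = χ at hL
  have h6 : 6 ≤ χ := six_le hL.1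
  have h7 : χ ≤ 7 := hL.2 seven'
  obtain ⟨n, rfl⟩ : ∃ n, χ = n + 1 := ⟨χ - 1, by omega⟩
  have c1 : unitGraph.Colorable (n + 1) := (colorable_iff _).2 hL.1
  have c2 : ¬ unitGraph.Colorable n := fun h => by
    have := hL.2 ((colorable_iff _).1 h)
    omega
  refine ⟨n + 1, hL, chrom_eq c1 c2, by omega, ?_, ⟨?_, fun k ⟨c, hc, _⟩ => hL.2 ⟨c, hc⟩⟩, ?_⟩
  · obtain ⟨S, hS⟩ := finite_sub c2
    exact ⟨S, chrom_eq (c1.of_hom (SimpleGraph.Embedding.induce _).toHom) hS⟩
  · obtain ⟨c, hc⟩ := hL.1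
    obtain ⟨-, c', h1, h2⟩ :=
      (Results.P032.MeasurableEqual.result (n + 1)).1.1 ⟨c, (proper_iff c).1 hc⟩
    exact ⟨c', (proper_iff c').2 h1, fun i => (h2 i).1⟩
  · constructor
    · intro e
      have h : ∃ c : Plane → Fin 6, Proper c := e ▸ hL.1
      obtain ⟨c, hc⟩ := h
      obtain ⟨-, U, a, -, b, d⟩ :=
        (Results.P032.AllColouringsOpen.result 6).1 ⟨c, (proper_iff c).1 hc⟩
      exact ⟨U, a, fun i x hx y hy => by rw [← dist_eq_norm]; exact b i x hx y hy, d⟩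
    · rintro ⟨U, hU, hunit, hdense⟩
      refine le_antisymm (hL.2 ((colorable_iff 6).1 ?_)) h6
      by_contra hc
      obtain ⟨S, hS⟩ := finite_sub hc
      apply hS
      have hopen : ∀ v : Plane, IsOpen {t | v + t ∈ ⋃ i, U i} := fun v =>
        (isOpen_iUnion hU).preimage (continuous_const.add continuous_id)
      have hd : ∀ v : Plane, Dense {t | v + t ∈ ⋃ i, U i} := fun v =>
        hdense.preimage (Homeomorph.addLeft v).isOpenMap
      have hall : Dense (⋂ v ∈ (S : Set Plane), {t | v + t ∈ ⋃ i, U i}) :=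
        dense_biInter_of_isOpen (fun v _ => hopen v) S.countable_toSet (fun v _ => hd v)
      obtain ⟨t, ht⟩ := hall.nonempty
      have ht' : ∀ v : (S : Set Plane), ∃ i, (v : Plane) + t ∈ U i := fun v =>
        Set.mem_iUnion.1 (Set.mem_iInter₂.1 ht v v.2)
      choose f hf using ht'
      refine ⟨SimpleGraph.Coloring.mk f fun {u v} huv h => ?_⟩
      apply hunit (f u) _ (hf u) _ (h ▸ hf v)
      rw [add_sub_add_right_eq_sub]
      exact huv

end Vale.Agent.P032S
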